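import Vale.Agent.P108.Defs

/-! P108: orbits, Jacobi solutions, events, and their elementary properties. -/

namespace Vale.Agent.P108

open MeasureTheory Filter Real Set

noncomputable section

/-! ### orbits and words -/

/-- potential -/
def vv (k x : ℝ) : ℝ := 2 + 2 * π * k * cos (2 * π * x)

/-- one-sided orbit `X 0 = a`, `X 1 = b` -/
def X (k a b : ℝ) : ℕ → ℝ
  | 0 => a
  | 1 => b
  | l + 2 => 2 * X k a b (l + 1) - X k a b l + k * sin (2 * π * X k a b (l + 1))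

/-- the word of potentials along the orbit -/
def wd (k : ℝ) (z : ℝ × ℝ) (l : ℕ) : ℝ := vv k (X k z.1 z.2 l)

/-- the shift -/
def Tm (k : ℝ) (z : ℝ × ℝ) : ℝ × ℝ := (z.2, 2 * z.2 - z.1 + k * sin (2 * π * z.2))

/-- the reflection fixing the first coordinate: (x₀, x₁) ↦ (x₀, x₋₁) -/
def lf (k : ℝ) (z : ℝ × ℝ) : ℝ × ℝ := (z.1, 2 * z.1 - z.2 + k * sin (2 * π * z.1))

/-- complex orbit -/
def XC (k a : ℝ) (β : ℂ) : ℕ → ℂ
  | 0 => a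
  | 1 => β
  | l + 2 => 2 * XC k a β (l + 1) - XC k a β l + k * Complex.sin (2 * π * XC k a β (l + 1))

/-- complex word -/
def wC (k a : ℝ) (β : ℂ) (l : ℕ) : ℂ := 2 + 2 * π * k * Complex.cos (2 * π * XC k a β l)

/-! ### Jacobi solutions -/

/-- Dirichlet solution -/
def D {R : Type} [Ring R] (v : ℕ → R) : ℕ → R
  | 0 => 0
  | 1 => 1
  | l + 2 => v (l + 1) * D v (l + 1) - D v l

/-- the second solution -/
def E {R : Type} [Ring R] (v : ℕ → R) : ℕ → R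
  | 0 => 1
  | 1 => 0
  | l + 2 => v (l + 1) * E v (l + 1) - E v l

/-- `y 0, …, y (N+1)` solve the Jacobi equation with potentials `v 1, …, v N` -/
def SolN {R : Type} [Ring R] (v y : ℕ → R) (N : ℕ) : Prop :=
  ∀ l < N, y (l + 2) = v (l + 1) * y (l + 1) - y l

/-- norm of the pair (y n, y (n+1)) -/
def pn (y : ℕ → ℝ) (n : ℕ) : ℝ := |y (n + 1)| + |y n|

/-- entrywise norm of the transfer matrix through `v 1, …, v n` -/
def NN (v : ℕ → ℝ) (n : ℕ) : ℝ := pn (D v) n + pn (E v) n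

def Bd (ω : ℝ) (v : ℕ → ℝ) : Prop := ∀ l, |v l| ≤ ω ^ 10000 - 2

def RegN (μ : ℝ) (N : ℕ) (v : ℕ → ℝ) : Prop := ∀ n, 1 ≤ n → n ≤ N → μ ^ n ≤ NN v n
def RegD (μ : ℝ) (N : ℕ) (v : ℕ → ℝ) : Prop := ∀ n ≤ N, μ ^ n ≤ pn (D v) n

/-- the profile condition at `J` -/
def Prof (ω : ℝ) (f : ℕ) (C : ℝ) (J : ℕ) (v : ℕ → ℝ) : Prop :=
  ∀ l ≤ J, |D v l| * ω ^ (f * (J - l)) ≤ C * |D v J|

/-- matching defect -/
def Th (J I : ℕ) (v v' : ℕ → ℝ) : ℝ := v 0 + E v J / D v J + E v' I / D v' I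

/-- tangency event, for the right word `v` and the left word `v'` issued from the middle point -/
structure PE (ω : ℝ) (cl : ℝ → Prop) (j j' : ℕ) (v v' : ℕ → ℝ) : Prop where
  j1 : 1 ≤ j
  j1' : 1 ≤ j'
  pr : Prof ω 9800 1 j v
  pr' : Prof ω 9800 1 j' v'
  c : ∀ l ≤ 12, cl (v (j + l))
  c' : ∀ l ≤ 12, cl (v' (j' + l))
  r : |D v j| ≤ ω ^ 20000 * |D v' j'|
  r' : |D v' j'| ≤ ω ^ 20000 * |D v j|
  m : ∀ a ≤ 10, ∀ b ≤ 10, |Th (j + a + 1) (j' + b + 1) v v'| ≤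
    3 / |D v (j + a + 1) * D v (j + a + 2)| + 3 / |D v' (j' + b + 1) * D v' (j' + b + 2)|

/-- return event -/
structure PF (ω : ℝ) (J I : ℕ) (v v' : ℕ → ℝ) : Prop where
  j1 : 1 ≤ J
  j1' : 1 ≤ I
  pr : Prof ω 9000 2 J v
  pr' : Prof ω 9000 2 I v'
  r : |D v J| ≤ ω ^ 10000 * |D v' I|
  r' : |D v' I| ≤ ω ^ 10000 * |D v J|
  m : |Th J I v v'| * (|D v J| * |D v' I|) ≤ ω ^ 40000

/-- return event seen from the end point, `w` the backward word -/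
structure PR (ω : ℝ) (J I : ℕ) (w : ℕ → ℝ) : Prop where
  j1 : 1 ≤ J
  j1' : 1 ≤ I
  ret : NN w (J + I - 1) ≤ ω ^ 50000
  b : ∀ n ≤ J - 1, ω ^ (9000 * n) ≤ ω ^ 10000 * NN w n
  f : ∀ n ≤ I - 1, ω ^ (9000 * n) ≤ ω ^ 10000 * NN (fun l => w (l + (J + I - 1 - n))) n

def Pairs (M d : ℕ) : Finset (ℕ × ℕ) :=
  (Finset.range M ×ˢ Finset.range M).filter fun p => p.1 ≤ p.2 + d ∧ p.2 ≤ p.1 + d

/-- polynomial of degree at most four -/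
def pol (p : Fin 5 → ℝ) (s : ℝ) : ℝ := p 0 + p 1 * s + p 2 * s ^ 2 + p 3 * s ^ 3 + p 4 * s ^ 4

/-! ### events -/

structure Big (k θ ω : ℝ) : Prop where
  θ0 : 0 < θ
  θ1 : θ ≤ 1
  k0 : 0 < k
  hΛ : 2 * π * k + 4 = ω ^ 10000
  hω : 10 ^ 6 ≤ θ * ω

/-- clean potential value -/
def Cl (k θ x : ℝ) : Prop := θ * (2 * π * k) ≤ |x - 2|

def mu : Measure (ℝ × ℝ) := volume.restrict (Ico 0 1 ×ˢ Ico 0 1)

def Unc (k θ : ℝ) : Set (ℝ × ℝ) :=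
  {z | ∃ l ≤ 10001, ¬ Cl k θ (wd k z l) ∨ ¬ Cl k θ (wd k z.swap l)}
def IrrN (k ω : ℝ) (M : ℕ) : Set (ℝ × ℝ) := {z | ¬ RegN (ω ^ 9999) M (wd k z)}
def IrrD (k ω : ℝ) (M : ℕ) : Set (ℝ × ℝ) := {z | ¬ RegD (ω ^ 9998) M (wd k z)}
def DI (k ω : ℝ) (M : ℕ) : Set (ℝ × ℝ) := {z | z ∈ IrrD k ω M ∧ z.swap ∈ IrrD k ω M}
def EW (k θ ω : ℝ) (j j' : ℕ) : Set (ℝ × ℝ) := {z | PE ω (Cl k θ) j j' (wd k z) (wd k (lf k z))}
def FW (k ω : ℝ) (J I : ℕ) : Set (ℝ × ℝ) := {z | PF ω J I (wd k z) (wd k (lf k z))}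

/-- deficit -/
def df (k ω : ℝ) (M : ℕ) (z : ℝ × ℝ) : ℝ := M * log (ω ^ 10000) - log (NN (wd k z) M)

/-- invariance under integer translations -/
def Per {α : Type} (F : ℝ × ℝ → α) : Prop := ∀ (z : ℝ × ℝ) (p q : ℤ), F (z.1 + p, z.2 + q) = F z

end

end Vale.Agent.P108
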